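import Vale.Agent.P201.Z.C.Low

/-! P201, part C: assembly. -/

namespace Vale.Agent.P201.Z

open Finset

variable {p : Pat} {n : ℕ}

theorem stmtC (hB : StmtB) (hR : StmtRho) : StmtC := by
  sorry

end Vale.Agent.P201.Z
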