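import Vale.Agent.P201.Z.C.MDefs

/-! P201, part C: codes and total mass. -/

namespace Vale.Agent.P201.Z

open Finset

variable {p : Pat} {n : ℕ}

theorem card_Cd (V a k : ℕ) : Fintype.card (Cd V a k) ≤ (V + 2) ^ (5 * a + 4 * k) := by
  sorry

/-- ports of a block -/
theorem prtN_le (b : Blk p n) : prtN b ≤ 2 * p.Ttot := by
  sorry

theorem QM_nonneg (h : ∀ V (w : Om p n V), 0 ≤ wO w) (V : ℕ) (S : Finset (Cel p n × Cel p n)) :
    0 ≤ QM p n V S := by
  sorry

theorem QM_sum (V : ℕ) (h1 : ∑ w : Om p n V, wO w = 1) :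
    ∑ S : Finset (Cel p n × Cel p n), QM p n V S ≤ 1 := by
  sorry

end Vale.Agent.P201.Z
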