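import Vale.Agent.P201.Z.C.MDefs

/-! P201, part C: `dec` depends only on the active data. -/

namespace Vale.Agent.P201.Z

open Finset

variable {p : Pat} {n : ℕ}

theorem dec_congr {a : ℕ} (st len : Fin a → ℕ) (act : Finset (Fin a))
    (pt pt' : Fin a → Bool → Port p n) (un un' : ℕ → Port p n × Port p n)
    (hp : ∀ r ∈ act, ∀ e, pt r e = pt' r e) (hu : ∀ x ∈ ap st len act, un x = un' x) :
    dec st len act pt un = dec st len act pt' un' := by
  classical
  have hm : ∀ r ∈ act, ∀ i < len r, un (st r + i) = un' (st r + i) := by
    intro r hr i hi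
    apply hu
    unfold ap
    rw [mem_biUnion]
    exact ⟨r, hr, mem_image.2 ⟨i, mem_range.2 hi, rfl⟩⟩
  unfold dec
  refine Finset.biUnion_congr rfl (fun r hr => ?_)
  refine Finset.image_congr (fun i hi => ?_)
  have hi' : i < len r + 1 := by simpa using hi
  have h1 : outp (st r) (pt r false) un i = outp (st r) (pt' r false) un' i := by
    unfold outp
    by_cases h0 : i = 0
    · simp only [h0, if_true]; exact hp r hr false
    · simp only [h0, if_false]
      have : st r + i - 1 = st r + (i - 1) := by omega
      rw [this, hm r hr (i - 1) (by omega)]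
  have h2 : inp (st r) (len r) (pt r true) un i = inp (st r) (len r) (pt' r true) un' i := by
    unfold inp
    by_cases h0 : i < len r
    · simp only [h0, if_true]; rw [hm r hr i h0]
    · simp only [h0, if_false]; exact hp r hr true
  show prt _ _ = prt _ _
  rw [h1, h2]

end Vale.Agent.P201.Z
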