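import Vale.Agent.P201.Z.C.MDefs

/-! P201, part C: the probability space. -/

namespace Vale.Agent.P201.Z

open Finset

variable {p : Pat} {n : ℕ}

/-- mass of a cylinder of a product of probability weights -/
theorem cyl_mass {ι Ω : Type} [Fintype ι] [DecidableEq ι] [Fintype Ω] [DecidableEq Ω]
    (f : ι → Ω → ℝ) (h1 : ∀ i, ∑ x, f i x = 1) (A : Finset ι) (x0 : ι → Ω) :
    ∑ w : ι → Ω, (if ∀ i ∈ A, w i = x0 i then ∏ i, f i (w i) else 0) = ∏ i ∈ A, f i (x0 i) := by
  have e1 : ∀ w : ι → Ω, (if ∀ i ∈ A, w i = x0 i then ∏ i, f i (w i) else 0) =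
      ∏ i, (if i ∈ A then (if w i = x0 i then f i (w i) else 0) else f i (w i)) := by
    intro w
    split_ifs with h
    · refine Finset.prod_congr rfl fun i _ => ?_
      by_cases hi : i ∈ A
      · simp [hi, h i hi]
      · simp [hi]
    · push Not at h
      obtain ⟨i, hi, hw⟩ := h
      symm
      apply Finset.prod_eq_zero (Finset.mem_univ i)
      simp [hi, hw]
  rw [Finset.sum_congr rfl fun w _ => e1 w]
  have e2 : ∑ w : ι → Ω, ∏ i, (if i ∈ A then (if w i = x0 i then f i (w i) else 0) else f i (w i))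
      = ∏ i, ∑ x, (if i ∈ A then (if x = x0 i then f i x else 0) else f i x) := by
    rw [Finset.prod_univ_sum, Fintype.piFinset_univ]
  rw [e2, ← Finset.prod_filter_mul_prod_filter_not univ (fun i => i ∈ A)]
  have e3 : ∏ i ∈ univ.filter (fun i => ¬ i ∈ A),
      ∑ x, (if i ∈ A then (if x = x0 i then f i x else 0) else f i x) = 1 := by
    refine Finset.prod_eq_one fun i hi => ?_
    simp only [mem_filter, mem_univ, true_and] at hi
    simp [hi, h1]
  rw [e3, mul_one]
  have e4 : univ.filter (fun i => i ∈ A) = A := by ext i; simp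
  rw [e4]
  refine Finset.prod_congr rfl fun i hi => ?_
  simp [hi]

theorem mem_LS {l : Lbl p} : l ∈ LS p n ↔ ∃ u : Port p n × Port p n, IsU u ∧ lam u = l := by
  classical
  simp [LS]

theorem nlab_pos {l : Lbl p} {u : Port p n × Port p n} (h1 : IsU u) (h2 : lam u = l) :
    0 < nlab p n l := by
  classical
  unfold nlab
  exact Finset.card_pos.2 ⟨u, by simp [h1, h2]⟩

theorem isU_swap {u : Port p n × Port p n} (h : IsU u) : IsU (u.2, u.1) :=
  ⟨h.1.symm, fun h' => h.2 h'.symm⟩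

theorem lam_swap (u : Port p n × Port p n) : lam (u.2, u.1) = rev (lam u) := by
  simp [lam, rev]

theorem nlab_pos_of_mem {l : Lbl p} (h : l ∈ LS p n) (b : Bool) :
    0 < nlab p n (if b then l else rev l) := by
  obtain ⟨u, hu, hl⟩ := mem_LS.1 h
  cases b with
  | true => simpa using nlab_pos hu hl
  | false =>
    have : lam (u.2, u.1) = rev l := by rw [lam_swap, hl]
    simpa using nlab_pos (isU_swap hu) this

theorem pri_nonneg (l : Lbl p) : 0 ≤ pri p n l :=
  div_nonneg (sq_nonneg _) (Finset.sum_nonneg fun _ _ => sq_nonneg _)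

theorem wU_nonneg (l : Lbl p) (u : Port p n × Port p n) : 0 ≤ wU p n l u := by
  unfold wU
  split_ifs
  · positivity
  · exact le_refl _

theorem wP_nonneg (b : Blk p n) (q : Port p n) : 0 ≤ wP b q := by
  unfold wP
  split_ifs
  · positivity
  · positivity
  · exact le_refl _

theorem wO_nonneg {V : ℕ} (w : Om p n V) : 0 ≤ wO w := by
  unfold wO
  refine mul_nonneg (mul_nonneg (mul_nonneg (by positivity) ?_) ?_) ?_
  · exact Finset.prod_nonneg fun i _ => pri_nonneg _
  · exact Finset.prod_nonneg fun i _ => wU_nonneg _ _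
  · exact Finset.prod_nonneg fun i _ => wP_nonneg _ _

theorem exists_cel (hp : p.Good) (hn : 0 < n) : Nonempty (Cel p n) := by
  by_contra hne
  rw [not_nonempty_iff] at hne
  have h0 : p.Ttot = 0 := by
    unfold Pat.Ttot
    refine Finset.sum_eq_zero fun k _ => Finset.sum_eq_zero fun i _ => ?_
    rw [Finset.card_eq_zero]
    by_contra hN
    obtain ⟨h, hh⟩ := Finset.nonempty_iff_ne_empty.2 hN
    exact hne.false ⟨(i, (k, ⟨0, hn⟩)), ⟨h, hh⟩⟩
  have := hp.pos
  omega

theorem sum_blk (hp : p.Good) (hn : 0 < n) :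
    ∑ _b : Blk p n, (1 / (Fintype.card (Blk p n) : ℝ)) = 1 := by
  obtain ⟨c⟩ := exists_cel hp hn
  have : Nonempty (Blk p n) := ⟨blk c⟩
  have : (Fintype.card (Blk p n) : ℝ) ≠ 0 := by
    have := Fintype.card_pos (α := Blk p n)
    positivity
  rw [Finset.sum_const, Finset.card_univ, nsmul_eq_mul]
  field_simp

theorem rho_pos (hp : p.Good) (hn : 0 < n) {l : Lbl p} (h : l ∈ LS p n) : 0 < rho p n l := by
  have := exists_cel hp hn
  have h1 := nlab_pos_of_mem h true
  simp only [if_true] at h1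
  unfold rho
  have h2 := Fintype.card_pos (α := Cel p n)
  positivity

theorem sum_pri (hp : p.Good) (hn : 0 < n) : ∑ l : LT p n, pri p n l.1 = 1 := by
  have h0 : ∑ l : LT p n, pri p n l.1 = ∑ l ∈ LS p n, pri p n l := by
    refine Finset.sum_bij (fun a _ => a.1) (fun a _ => a.2) (fun a _ b _ h => Subtype.ext h)
      (fun b hb => ⟨⟨b, hb⟩, Finset.mem_univ _, rfl⟩) (fun _ _ => rfl)
  rw [h0]
  unfold pri
  rw [← Finset.sum_div]
  apply div_self
  obtain ⟨c⟩ := exists_cel hp hn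
  have hu : IsU (((c, true), (c, false)) : Port p n × Port p n) := ⟨rfl, by simp⟩
  have hl : lam (((c, true), (c, false)) : Port p n × Port p n) ∈ LS p n := mem_LS.2 ⟨_, hu, rfl⟩
  have h1 := rho_pos hp hn hl
  have h2 : rho p n (lam (((c, true), (c, false)) : Port p n × Port p n)) ^ 2 ≤
      ∑ l ∈ LS p n, rho p n l ^ 2 :=
    Finset.single_le_sum (f := fun l => rho p n l ^ 2) (fun _ _ => sq_nonneg _) hl
  have h3 : 0 < rho p n (lam (((c, true), (c, false)) : Port p n × Port p n)) ^ 2 := by positivity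
  linarith

theorem sum_wU {l : Lbl p} (h : 0 < nlab p n l) :
    ∑ u : Port p n × Port p n, wU p n l u = 1 := by
  classical
  unfold wU
  rw [← Finset.sum_filter, Finset.sum_const, nsmul_eq_mul]
  have h1 : ((univ.filter (fun u : Port p n × Port p n => IsU u ∧ lam u = l)).card : ℝ) =
      (nlab p n l : ℝ) := by
    unfold nlab
    congr!
  rw [h1]
  have : (nlab p n l : ℝ) ≠ 0 := by positivity
  field_simp

theorem sum_wP (hp : p.Good) (hn : 0 < n) (b : Blk p n) : ∑ q : Port p n, wP b q = 1 := by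
  classical
  obtain ⟨c⟩ := exists_cel hp hn
  unfold wP
  by_cases h : prtN b = 0
  · have : Nonempty (Port p n) := ⟨(c, true)⟩
    have h2 : (Fintype.card (Port p n) : ℝ) ≠ 0 := by
      have := Fintype.card_pos (α := Port p n)
      positivity
    simp only [h, if_true]
    rw [Finset.sum_const, Finset.card_univ, nsmul_eq_mul]
    field_simp
  · simp only [h, if_false]
    rw [← Finset.sum_filter, Finset.sum_const, nsmul_eq_mul]
    have h1 : ((univ.filter (fun q : Port p n => blk q.1 = b)).card : ℝ) = (prtN b : ℝ) := by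
      unfold prtN
      congr!
    rw [h1]
    have : (prtN b : ℝ) ≠ 0 := by positivity
    field_simp

theorem sum_four {A B C D : Type} [Fintype A] [Fintype B] [Fintype C] [Fintype D]
    (f1 : A → ℝ) (f2 : B → ℝ) (f3 : C → ℝ) (f4 : D → ℝ) :
    ∑ w : A × B × C × D, f1 w.1 * f2 w.2.1 * f3 w.2.2.1 * f4 w.2.2.2 =
      (∑ a, f1 a) * (∑ b, f2 b) * (∑ c, f3 c) * (∑ d, f4 d) := by
  have h2 : ∀ a b, ∑ y : C × D, f1 a * f2 b * f3 y.1 * f4 y.2 =
      f1 a * f2 b * ((∑ c, f3 c) * (∑ d, f4 d)) := by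
    intro a b
    rw [Fintype.sum_prod_type, Finset.sum_mul_sum, Finset.mul_sum]
    refine Finset.sum_congr rfl fun c _ => ?_
    rw [Finset.mul_sum]
    refine Finset.sum_congr rfl fun d _ => ?_
    ring
  have h1 : ∀ a, ∑ y : B × C × D, f1 a * f2 y.1 * f3 y.2.1 * f4 y.2.2 =
      f1 a * ((∑ b, f2 b) * ((∑ c, f3 c) * (∑ d, f4 d))) := by
    intro a
    rw [Fintype.sum_prod_type, Finset.sum_mul, Finset.mul_sum]
    refine Finset.sum_congr rfl fun b _ => ?_
    rw [h2]
    ring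
  rw [Fintype.sum_prod_type, Finset.sum_congr rfl fun a _ => h1 a, ← Finset.sum_mul]
  ring

open Classical in
/-- mass of a cylinder -/
theorem wO_cyl (p : Pat) (hp : p.Good) {n : ℕ} (hn : 0 < n) (V : ℕ) (w0 : Om p n V)
    (A1 : Finset (Fin (V + 1))) (A2 : Finset (Fin (V + 1)))
    (A3 : Finset (Fin (V + 1) × LT p n × Bool))
    (A4 : Finset (Fin (V + 1) × Bool × Blk p n)) :
    ∑ w : Om p n V, (if (∀ i ∈ A1, w.1 i = w0.1 i) ∧ (∀ i ∈ A2, w.2.1 i = w0.2.1 i) ∧
        (∀ i ∈ A3, w.2.2.1 i = w0.2.2.1 i) ∧ (∀ i ∈ A4, w.2.2.2 i = w0.2.2.2 i) then wO w else 0) =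
      (∏ _i ∈ A1, (1 / (Fintype.card (Blk p n) : ℝ))) * (∏ i ∈ A2, pri p n (w0.2.1 i).1) *
      (∏ i ∈ A3, wU p n (if i.2.2 then i.2.1.1 else rev i.2.1.1) (w0.2.2.1 i)) *
      (∏ i ∈ A4, wP i.2.2 (w0.2.2.2 i)) := by
  have m1 := cyl_mass (ι := Fin (V + 1)) (Ω := Blk p n)
    (fun _ _ => (1 / (Fintype.card (Blk p n) : ℝ))) (fun _ => sum_blk hp hn) A1 w0.1
  have m2 := cyl_mass (ι := Fin (V + 1)) (Ω := LT p n)
    (fun _ l => pri p n l.1) (fun _ => sum_pri hp hn) A2 w0.2.1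
  have m3 := cyl_mass (ι := Fin (V + 1) × LT p n × Bool) (Ω := Port p n × Port p n)
    (fun i u => wU p n (if i.2.2 then i.2.1.1 else rev i.2.1.1) u)
    (fun i => sum_wU (nlab_pos_of_mem i.2.1.2 i.2.2)) A3 w0.2.2.1
  have m4 := cyl_mass (ι := Fin (V + 1) × Bool × Blk p n) (Ω := Port p n)
    (fun i q => wP i.2.2 q) (fun i => sum_wP hp hn i.2.2) A4 w0.2.2.2
  rw [← m1, ← m2, ← m3, ← m4, ← sum_four]
  refine Finset.sum_congr rfl fun w _ => ?_
  by_cases h1 : ∀ i ∈ A1, w.1 i = w0.1 i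
  · by_cases h2 : ∀ i ∈ A2, w.2.1 i = w0.2.1 i
    · by_cases h3 : ∀ i ∈ A3, w.2.2.1 i = w0.2.2.1 i
      · by_cases h4 : ∀ i ∈ A4, w.2.2.2 i = w0.2.2.2 i
        · rw [if_pos ⟨h1, h2, h3, h4⟩, if_pos h1, if_pos h2, if_pos h3, if_pos h4]
          unfold wO
          simp only [Finset.prod_const, Finset.card_univ, Fintype.card_fin]
        · rw [if_neg (fun h => h4 h.2.2.2), if_neg h4, mul_zero]
      · rw [if_neg (fun h => h3 h.2.2.1), if_neg h3, mul_zero, zero_mul]
    · rw [if_neg (fun h => h2 h.2.1), if_neg h2, mul_zero, zero_mul, zero_mul]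
  · rw [if_neg (fun h => h1 h.1), if_neg h1, zero_mul, zero_mul, zero_mul]

theorem wO_sum (p : Pat) (hp : p.Good) {n : ℕ} (hn : 0 < n) (V : ℕ) : ∑ w : Om p n V, wO w = 1 := by
  classical
  obtain ⟨c⟩ := exists_cel hp hn
  have hu : IsU (((c, true), (c, false)) : Port p n × Port p n) := ⟨rfl, by simp⟩
  have hl : lam (((c, true), (c, false)) : Port p n × Port p n) ∈ LS p n := mem_LS.2 ⟨_, hu, rfl⟩
  have h := wO_cyl p hp hn V (fun _ => blk c, fun _ => (⟨_, hl⟩ : LT p n),
    fun _ => ((c, true), (c, false)), fun _ => (c, true)) ∅ ∅ ∅ ∅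
  simpa using h

end Vale.Agent.P201.Z
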