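import Vale.Agent.P201.Z.Defs

/-!
P201, part C (description measure).  Interface between StmtB and the local inequality LA.
Architect: helper174 (with helper786).  See `PROOF_LA.md`, sections Labels and C.
-/

namespace Vale.Agent.P201.Z

open Finset

variable {p : Pat} {n : ℕ}

/-! ## Labels of units -/

/-- labels of units: row and copy of the two ports, difference of heights -/
abbrev Lbl (p : Pat) : Type := (p.I × Bool) × (p.I × Bool) × ℤ

/-- ordered pair of distinct ports of the same block -/
def IsU (u : Port p n × Port p n) : Prop := blk u.1.1 = blk u.2.1 ∧ u.1 ≠ u.2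

noncomputable def lam (u : Port p n × Port p n) : Lbl p := (rc u.1, rc u.2, ht u.2.1 - ht u.1.1)

def rev (l : Lbl p) : Lbl p := (l.2.1, l.1, -l.2.2)

open Classical in
/-- number of units with a given label -/
noncomputable def nlab (p : Pat) (n : ℕ) (l : Lbl p) : ℕ :=
  (univ.filter (fun u : Port p n × Port p n => IsU u ∧ lam u = l)).card

/-- density of a label: `nlab / #cells` -/
noncomputable def rho (p : Pat) (n : ℕ) (l : Lbl p) : ℝ :=
  (nlab p n l : ℝ) / (Fintype.card (Cel p n) : ℝ)

/-- facts on densities (proved from `Good`) -/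
def RhoFacts (p : Pat) (n : ℕ) : Prop :=
  (∀ L : Finset (Lbl p), ∑ l ∈ L, rho p n l ^ 2 ≤ 1 / 2) ∧
  (∀ u : Port p n × Port p n, IsU u → 1 ≤ (p.Ttot : ℝ) * rho p n (lam u)) ∧
  (∀ l : Lbl p, rho p n (rev l) = rho p n l) ∧
  Fintype.card (Cel p n) = n * p.Ttot

def StmtRho : Prop := ∀ p : Pat, p.Good → ∀ n : ℕ, 0 < n → RhoFacts p n

/-! ## Signed correspondences of positions -/

/-- a segment `(i, j, len, sign)`: position `i + x` corresponds to `j + x` (sign `true`) or to
`j - x` (sign `false`), `x < len` -/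
abbrev Seg : Type := ℕ × ℕ × ℕ × Bool

/-- elementary correspondence of signed positions -/
def SegRel (s : Seg) (u v : ℕ × Bool) : Prop :=
  ∃ x < s.2.2.1, u.1 = s.1 + x ∧
    ((s.2.2.2 = true ∧ v.1 = s.2.1 + x ∧ v.2 = u.2) ∨
      (s.2.2.2 = false ∧ v.1 + x = s.2.1 ∧ v.2 = !u.2))

def SRel {k : ℕ} (sg : Fin k → Seg) : ℕ × Bool → ℕ × Bool → Prop :=
  Relation.EqvGen (fun u v => ∃ m, SegRel (sg m) u v)

/-- class of a position: the smallest position related to it -/
noncomputable def kap {k : ℕ} (sg : Fin k → Seg) (x : ℕ) : ℕ :=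
  sInf {y | ∃ b c, SRel sg (x, b) (y, c)}

/-! ## Decoding -/

/-- the matched pair (copy-1 cell, copy-2 cell) of two ports of different copies -/
def prt (x y : Port p n) : Cel p n × Cel p n := if x.2 then (x.1, y.1) else (y.1, x.1)

/-- `i`-th outgoing port of an arc with start position `s` and start port `q` -/
def outp (s : ℕ) (q : Port p n) (un : ℕ → Port p n × Port p n) (i : ℕ) : Port p n :=
  if i = 0 then q else (un (s + i - 1)).2

/-- `i`-th incoming port of an arc with start position `s`, length `l` and end port `q` -/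
def inp (s l : ℕ) (q : Port p n) (un : ℕ → Port p n × Port p n) (i : ℕ) : Port p n :=
  if i < l then (un (s + i)).1 else q

open Classical in
/-- the set of matched pairs of the active arcs; `pt r false` is the start port and `pt r true` the
end port of the arc `r`, which has the inner positions `st r, ..., st r + len r - 1` -/
noncomputable def dec {a : ℕ} (st len : Fin a → ℕ) (act : Finset (Fin a))
    (pt : Fin a → Bool → Port p n) (un : ℕ → Port p n × Port p n) : Finset (Cel p n × Cel p n) :=
  act.biUnion fun r => (range (len r + 1)).image fun i =>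
    prt (outp (st r) (pt r false) un i) (inp (st r) (len r) (pt r true) un i)

/-- active positions -/
def ap {a : ℕ} (st len : Fin a → ℕ) (act : Finset (Fin a)) : Finset ℕ :=
  act.biUnion fun r => (range (len r)).image fun i => st r + i

/-- used irregular blocks -/
def usd {a : ℕ} (eb : Fin a → Bool → ℕ) (act : Finset (Fin a)) : Finset ℕ :=
  (act ×ˢ (univ : Finset Bool)).image fun x => eb x.1 x.2

/-- **Inequality (U)** for the matching `σ`, with all numbers at most `V`. -/
def UProp (σ : Equiv.Perm (Cel p n)) (V : ℕ) (C1 : ℝ) : Prop :=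
  ∀ (a k : ℕ) (st len : Fin a → ℕ) (eb : Fin a → Bool → ℕ) (sg : Fin k → Seg)
    (act : Finset (Fin a)) (bI : ℕ → Blk p n) (pt : Fin a → Bool → Port p n)
    (un : ℕ → Port p n × Port p n),
    a ≤ V → k ≤ V → (∀ r, st r + len r ≤ V) → (∀ r e, eb r e ≤ V) →
    (∀ m, (sg m).1 + (sg m).2.2.1 ≤ V ∧ (sg m).2.1 + (sg m).2.2.1 ≤ V) →
    (∀ r ∈ act, ∀ e, blk (pt r e).1 = bI (eb r e)) →
    (∀ x ∈ ap st len act, IsU (un x)) →
    (∀ m, ∀ x < (sg m).2.2.1,
      ((sg m).2.2.2 = true → lam (un ((sg m).2.1 + x)) = lam (un ((sg m).1 + x))) ∧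
      ((sg m).2.2.2 = false → ∀ y, y + x = (sg m).2.1 →
        lam (un y) = rev (lam (un ((sg m).1 + x))))) →
    dec st len act pt un ⊆ gr σ →
    (dec st len act pt un).card = ∑ r ∈ act, (len r + 1) →
    ∑ r ∈ act, (len r + 1) ≤ V →
    ((act.card : ℝ) - (usd eb act).card) * Real.log (Fintype.card (Cel p n)) ≤
      ∑ x ∈ ap st len act, Real.log (rho p n (lam (un x))) -
        ∑ c ∈ (ap st len act).image (kap sg),
          (Real.log 2 + 2 * Real.log (rho p n (lam (un c)))) +
        C1 * (a + k + 1) * Real.log (V + 2) + 1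

/-- PART C (from `StmtB`) -/
def StmtC : Prop :=
  ∀ p : Pat, p.Good → ∃ C1 : ℝ, 0 < C1 ∧ ∀ n g V : ℕ, 0 < n →
    (2 * V + 2) * ((4 * p.Ttot + 2) ^ (g + 3) + V) ≤ Fintype.card (Cel p n) →
    ∃ σ : Equiv.Perm (Cel p n), Girth σ g ∧ UProp σ V C1

end Vale.Agent.P201.Z
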