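import Vale.Agent.P201.Z.C.Defs

/-!
P201, part C: the class map `kap` of a signed correspondence (helper422).
-/

namespace Vale.Agent.P201.Z

open Finset

variable {p : Pat} {n : ℕ}

theorem rev_rev (l : Lbl p) : rev (rev l) = l := by
  obtain ⟨a, b, c⟩ := l
  simp [rev]

section kap

variable {k : ℕ} {sg : Fin k → Seg}

theorem SRel.refl (u : ℕ × Bool) : SRel sg u u := Relation.EqvGen.refl u

theorem SRel.symm {u v : ℕ × Bool} (h : SRel sg u v) : SRel sg v u := Relation.EqvGen.symm _ _ h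

theorem SRel.trans {u v w : ℕ × Bool} (h : SRel sg u v) (h' : SRel sg v w) : SRel sg u w :=
  Relation.EqvGen.trans _ _ _ h h'

theorem SRel.base {u v : ℕ × Bool} {m : Fin k} (h : SegRel (sg m) u v) : SRel sg u v :=
  Relation.EqvGen.rel _ _ ⟨m, h⟩

/-- flipping both signs -/
theorem SRel.flip {u v : ℕ × Bool} (h : SRel sg u v) : SRel sg (u.1, !u.2) (v.1, !v.2) := by
  induction h with
  | rel u v h =>
    obtain ⟨m, x, hx, h1, h2⟩ := h
    refine SRel.base (m := m) ⟨x, hx, h1, ?_⟩
    rcases h2 with ⟨h2, h3, h4⟩ | ⟨h2, h3, h4⟩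
    · exact Or.inl ⟨h2, h3, by simp [h4]⟩
    · exact Or.inr ⟨h2, h3, by simp [h4]⟩
  | refl u => exact SRel.refl _
  | symm u v _ ih => exact ih.symm
  | trans u v w _ _ ih1 ih2 => exact ih1.trans ih2

theorem kap_set_nonempty (sg : Fin k → Seg) (x : ℕ) :
    {y | ∃ b c, SRel sg (x, b) (y, c)}.Nonempty := ⟨x, true, true, SRel.refl _⟩

theorem kap_mem (sg : Fin k → Seg) (x : ℕ) : ∃ b c, SRel sg (x, b) (kap sg x, c) :=
  Nat.sInf_mem (kap_set_nonempty sg x)

theorem kap_le (sg : Fin k → Seg) (x : ℕ) : kap sg x ≤ x :=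
  Nat.sInf_le ⟨true, true, SRel.refl _⟩

theorem kap_mem_true (sg : Fin k → Seg) (x : ℕ) : ∃ c, SRel sg (x, true) (kap sg x, c) := by
  obtain ⟨b, c, h⟩ := kap_mem sg x
  cases b with
  | true => exact ⟨c, h⟩
  | false => exact ⟨!c, by simpa using h.flip⟩

theorem kap_eq_of_rel {x y : ℕ} {b c : Bool} (h : SRel sg (x, b) (y, c)) :
    kap sg x = kap sg y := by
  unfold kap
  congr 1
  ext z
  constructor
  · rintro ⟨b', c', h'⟩
    by_cases hb : b' = b
    · subst hb
      exact ⟨c, c', h.symm.trans h'⟩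
    · have hb2 : b' = !b := by cases b <;> cases b' <;> simp_all
      subst hb2
      have h2 := h.flip
      exact ⟨!c, c', h2.symm.trans h'⟩
  · rintro ⟨b', c', h'⟩
    by_cases hb : b' = c
    · subst hb
      exact ⟨b, c', h.trans h'⟩
    · have hb2 : b' = !c := by cases c <;> cases b' <;> simp_all
      subst hb2
      have h2 := h.flip
      exact ⟨!b, c', h2.trans h'⟩

theorem kap_idem (sg : Fin k → Seg) (x : ℕ) : kap sg (kap sg x) = kap sg x := by
  obtain ⟨b, c, h⟩ := kap_mem sg x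
  exact (kap_eq_of_rel h).symm

/-- `kap` is constant along segments, positive sign -/
theorem kap_seg_pos (m : Fin k) {x : ℕ} (hx : x < (sg m).2.2.1) (hs : (sg m).2.2.2 = true) :
    kap sg ((sg m).1 + x) = kap sg ((sg m).2.1 + x) :=
  kap_eq_of_rel (b := true) (c := true) (SRel.base (m := m) ⟨x, hx, rfl, Or.inl ⟨hs, rfl, rfl⟩⟩)

/-- `kap` is constant along segments, negative sign -/
theorem kap_seg_neg (m : Fin k) {x y : ℕ} (hx : x < (sg m).2.2.1) (hs : (sg m).2.2.2 = false)
    (hy : y + x = (sg m).2.1) : kap sg ((sg m).1 + x) = kap sg y :=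
  kap_eq_of_rel (b := true) (c := false)
    (SRel.base (m := m) ⟨x, hx, rfl, Or.inr ⟨hs, hy, rfl⟩⟩)

/-- the sign of a position in its class -/
noncomputable def sgn (sg : Fin k → Seg) (x : ℕ) : Bool := (kap_mem_true sg x).choose

theorem sgn_spec (sg : Fin k → Seg) (x : ℕ) : SRel sg (x, true) (kap sg x, sgn sg x) :=
  (kap_mem_true sg x).choose_spec

/-- signed label -/
def slab (l : ℕ → Lbl p) (u : ℕ × Bool) : Lbl p := if u.2 then l u.1 else rev (l u.1)

/-- the segment hypothesis on labels -/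
def SegLab (sg : Fin k → Seg) (l : ℕ → Lbl p) : Prop :=
  ∀ m, ∀ x < (sg m).2.2.1,
    ((sg m).2.2.2 = true → l ((sg m).2.1 + x) = l ((sg m).1 + x)) ∧
    ((sg m).2.2.2 = false → ∀ y, y + x = (sg m).2.1 → l y = rev (l ((sg m).1 + x)))

theorem slab_eq_of_rel {l : ℕ → Lbl p} (hl : SegLab sg l) {u v : ℕ × Bool} (h : SRel sg u v) :
    slab l u = slab l v := by
  induction h with
  | rel u v h =>
    obtain ⟨m, x, hx, h1, h2⟩ := h
    obtain ⟨u1, u2⟩ := u
    obtain ⟨v1, v2⟩ := v
    simp only at h1 h2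
    subst h1
    rcases h2 with ⟨h2, h3, h4⟩ | ⟨h2, h3, h4⟩
    · subst h3 h4
      have := (hl m x hx).1 h2
      simp only [slab, this]
    · subst h4
      have := (hl m x hx).2 h2 v1 h3
      cases u2 <;> simp [slab, this, rev_rev]
  | refl u => rfl
  | symm u v _ ih => exact ih.symm
  | trans u v w _ _ ih1 ih2 => exact ih1.trans ih2

/-- the label of a position in terms of the label of its class -/
theorem lab_kap {l : ℕ → Lbl p} (hl : SegLab sg l) (x : ℕ) :
    l x = if sgn sg x then l (kap sg x) else rev (l (kap sg x)) := by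
  have := slab_eq_of_rel hl (sgn_spec sg x)
  simpa [slab] using this

end kap

end Vale.Agent.P201.Z
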