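import Vale.Agent.P201.Z.C.Cong
import Vale.Agent.P201.Z.C.Cyl
import Vale.Agent.P201.Z.C.Cod

/-! P201, part C: lower bound for the measure of a description (helper174). -/

namespace Vale.Agent.P201.Z

open Finset

variable {p : Pat} {n : ℕ}

theorem fv_val {V x : ℕ} (h : x ≤ V) : ((fv V x : Fin (V + 1)) : ℕ) = x := by
  simp [fv, h]

theorem fv_inj {V x y : ℕ} (hx : x ≤ V) (hy : y ≤ V) (h : fv V x = fv V y) : x = y := by
  have := congrArg Fin.val h
  rwa [fv_val hx, fv_val hy] at this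

theorem ap_le {V a : ℕ} {st len : Fin a → ℕ} {act : Finset (Fin a)} (h3 : ∀ r, st r + len r ≤ V)
    {x : ℕ} (hx : x ∈ ap st len act) : x ≤ V := by
  simp only [ap, mem_biUnion, mem_image, mem_range] at hx
  obtain ⟨r, -, i, hi, rfl⟩ := hx
  have := h3 r
  omega

theorem wO_nonneg' {V : ℕ} (w : Om p n V) : 0 ≤ wO w := wO_nonneg w

theorem fin_sum_le {V : ℕ} (F : ℕ → ℕ → ℝ) (hF : ∀ a k, 0 ≤ F a k) {a k : ℕ} (ha : a ≤ V)
    (hk : k ≤ V) : F a k ≤ ∑ a : Fin (V + 1), ∑ k : Fin (V + 1), F a k := by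
  have e1 : ∑ k' : Fin (V + 1), F a k' ≤ ∑ a : Fin (V + 1), ∑ k : Fin (V + 1), F a k :=
    Finset.single_le_sum (f := fun a' : Fin (V + 1) => ∑ k : Fin (V + 1), F a' k)
      (fun i _ => Finset.sum_nonneg fun j _ => hF _ _) (Finset.mem_univ (⟨a, by omega⟩ : Fin (V + 1)))
  have e2 : F a k ≤ ∑ k' : Fin (V + 1), F a k' :=
    Finset.single_le_sum (f := fun k' : Fin (V + 1) => F a k')
      (fun i _ => hF _ _) (Finset.mem_univ (⟨k, by omega⟩ : Fin (V + 1)))
  exact e2.trans e1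

open Classical in
/-- one inner sum of the measure -/
noncomputable def QF (p : Pat) (n V : ℕ) (S : Finset (Cel p n × Cel p n)) (a k : ℕ) : ℝ :=
  ∑ c : Cd V a k, (1 / (((V : ℝ) + 1) ^ 2 * (Fintype.card (Cd V a k) : ℝ))) *
    ∑ w : Om p n V, (if decC c w = S then wO w else 0)

theorem QM_eq (V : ℕ) (S : Finset (Cel p n × Cel p n)) (h9 : S.card ≤ V) :
    QM p n V S = ∑ a : Fin (V + 1), ∑ k : Fin (V + 1), QF p n V S a k := by
  unfold QM
  rw [if_pos h9]
  rfl

/-- one summand of the measure -/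
theorem QM_term (V a k : ℕ) (h1 : a ≤ V) (h2 : k ≤ V) (c : Cd V a k)
    (S : Finset (Cel p n × Cel p n)) (h9 : S.card ≤ V) (E : Om p n V → Prop) [DecidablePred E]
    (hE : ∀ w, E w → decC c w = S) :
    (1 / (((V : ℝ) + 1) ^ 2 * ((V : ℝ) + 2) ^ (5 * a + 4 * k))) *
      ∑ w : Om p n V, (if E w then wO w else 0) ≤ QM p n V S := by
  classical
  have hnn : ∀ (a k : ℕ) (c : Cd V a k), 0 ≤
      (1 / (((V : ℝ) + 1) ^ 2 * (Fintype.card (Cd V a k) : ℝ))) *
        ∑ w : Om p n V, (if decC c w = S then wO w else 0) := by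
    intro a k c
    refine mul_nonneg (by positivity) (Finset.sum_nonneg fun w _ => ?_)
    split_ifs
    · exact wO_nonneg w
    · exact le_rfl
  have hcard : (Fintype.card (Cd V a k) : ℝ) ≤ ((V : ℝ) + 2) ^ (5 * a + 4 * k) := by
    exact_mod_cast card_Cd V a k
  have hpos : (0 : ℝ) < (Fintype.card (Cd V a k) : ℝ) := by
    exact_mod_cast Fintype.card_pos_iff.2 ⟨c⟩
  have hs : ∑ w : Om p n V, (if E w then wO w else 0) ≤
      ∑ w : Om p n V, (if decC c w = S then wO w else 0) := by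
    refine Finset.sum_le_sum fun w _ => ?_
    by_cases hw : E w
    · rw [if_pos hw, if_pos (hE w hw)]
    · rw [if_neg hw]
      split_ifs
      · exact wO_nonneg w
      · exact le_rfl
  have hs0 : 0 ≤ ∑ w : Om p n V, (if E w then wO w else 0) := by
    refine Finset.sum_nonneg fun w _ => ?_
    split_ifs
    · exact wO_nonneg w
    · exact le_rfl
  rw [QM_eq V S h9]
  have hF : ∀ a k, 0 ≤ QF p n V S a k := by
    intro a k
    unfold QF
    refine Finset.sum_nonneg fun c _ => ?_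
    convert hnn a k c
  refine le_trans ?_ (fin_sum_le (QF p n V S) hF h1 h2)
  have e3 : (1 / (((V : ℝ) + 1) ^ 2 * (Fintype.card (Cd V a k) : ℝ))) *
        ∑ w : Om p n V, (if decC c w = S then wO w else 0) ≤ QF p n V S a k := by
    unfold QF
    convert Finset.single_le_sum (f := fun c' : Cd V a k =>
      (1 / (((V : ℝ) + 1) ^ 2 * (Fintype.card (Cd V a k) : ℝ))) *
        ∑ w : Om p n V, (if decC c' w = S then wO w else 0))
      (fun c _ => hnn _ _ c) (Finset.mem_univ c)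
  refine le_trans ?_ e3
  refine mul_le_mul ?_ hs hs0 (by positivity)
  apply one_div_le_one_div_of_le
  · positivity
  · exact mul_le_mul_of_nonneg_left hcard (by positivity)

/-- lower bound of the measure of a description -/
theorem QM_lower (p : Pat) (hp : p.Good) {n : ℕ} (hn : 0 < n) (V a k : ℕ) (st len : Fin a → ℕ)
    (eb : Fin a → Bool → ℕ) (sg : Fin k → Seg)
    (act : Finset (Fin a)) (bI : ℕ → Blk p n) (pt : Fin a → Bool → Port p n)
    (un : ℕ → Port p n × Port p n)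
    (h1 : a ≤ V) (h2 : k ≤ V) (h3 : ∀ r, st r + len r ≤ V) (h4 : ∀ r e, eb r e ≤ V)
    (h5 : ∀ m, (sg m).1 + (sg m).2.2.1 ≤ V ∧ (sg m).2.1 + (sg m).2.2.1 ≤ V)
    (h6 : ∀ r ∈ act, ∀ e, blk (pt r e).1 = bI (eb r e))
    (h7 : ∀ x ∈ ap st len act, IsU (un x))
    (h8 : ∀ m, ∀ x < (sg m).2.2.1,
      ((sg m).2.2.2 = true → lam (un ((sg m).2.1 + x)) = lam (un ((sg m).1 + x))) ∧
      ((sg m).2.2.2 = false → ∀ y, y + x = (sg m).2.1 →
        lam (un y) = rev (lam (un ((sg m).1 + x)))))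
    (h9 : (dec st len act pt un).card ≤ V) :
    (1 / (((V : ℝ) + 1) ^ 2 * ((V : ℝ) + 2) ^ (5 * a + 4 * k))) *
      ((1 / (Fintype.card (Blk p n) : ℝ)) ^ (usd eb act).card *
        (∏ c ∈ (ap st len act).image (kap sg), pri p n (lam (un c))) *
        (∏ x ∈ ap st len act, 1 / (nlab p n (lam (un x)) : ℝ)) *
        (1 / (2 * p.Ttot : ℝ)) ^ (2 * act.card)) ≤
      QM p n V (dec st len act pt un) := by
  classical
  -- a point of the space
  have hne : Nonempty (Om p n V) := by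
    by_contra hcon
    rw [not_nonempty_iff] at hcon
    have h := wO_sum p hp hn V
    rw [Finset.univ_eq_empty, Finset.sum_empty] at h
    exact zero_ne_one h
  obtain ⟨w1⟩ := hne
  have hlab : ∀ x, lam (un x) = if sgn sg x then lam (un (kap sg x)) else rev (lam (un (kap sg x))) :=
    fun x => lab_kap (l := fun x => lam (un x)) h8 x
  have hLS1 : ∀ x ∈ ap st len act, lam (un x) ∈ LS p n := fun x hx =>
    mem_LS.2 ⟨un x, h7 x hx, rfl⟩
  have hLSrev : ∀ l : Lbl p, l ∈ LS p n → rev l ∈ LS p n := by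
    intro l hl
    obtain ⟨u, hu, hul⟩ := mem_LS.1 hl
    refine mem_LS.2 ⟨(u.2, u.1), ⟨hu.1.symm, fun h => hu.2 h.symm⟩, ?_⟩
    rw [← hul]
    simp [lam, rev]
  have hLSk : ∀ x ∈ ap st len act, lam (un (kap sg x)) ∈ LS p n := by
    intro x hx
    have h := hLS1 x hx
    rw [hlab x] at h
    split_ifs at h with hs
    · exact h
    · have := hLSrev _ h
      rwa [rev_rev] at this
  have hsle : ∀ m, (sg m).1 ≤ V ∧ (sg m).2.1 ≤ V ∧ (sg m).2.2.1 ≤ V := fun m => by
    have := h5 m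
    omega
  let c0 : Cd V a k := (fun r => ⟨st r, by have := h3 r; omega⟩, fun r => ⟨len r, by have := h3 r; omega⟩,
    fun r e => ⟨eb r e, by have := h4 r e; omega⟩,
    fun m => (⟨(sg m).1, by have := hsle m; omega⟩, ⟨(sg m).2.1, by have := hsle m; omega⟩,
      ⟨(sg m).2.2.1, by have := hsle m; omega⟩, (sg m).2.2.2), fun r => decide (r ∈ act))
  have hsg : sgOf c0 = sg := rfl
  let w0 : Om p n V := (fun i => bI i,
    fun i => if h : lam (un i) ∈ LS p n then ⟨lam (un i), h⟩ else w1.2.1 i,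
    fun y => un y.1,
    fun y => if h : (y.1 : ℕ) < a then pt ⟨y.1, h⟩ y.2.1 else w1.2.2.2 y)
  let A1 : Finset (Fin (V + 1)) := (usd eb act).image (fv V)
  let A2 : Finset (Fin (V + 1)) := ((ap st len act).image (kap sg)).image (fv V)
  let A3 : Finset (Fin (V + 1) × LT p n × Bool) :=
    (ap st len act).image fun x => (fv V x, w0.2.1 (fv V (kap sg x)), sgn sg x)
  let A4 : Finset (Fin (V + 1) × Bool × Blk p n) :=
    (act ×ˢ (univ : Finset Bool)).image fun y => (fv V y.1, y.2, bI (eb y.1 y.2))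
  have hfa : ∀ r : Fin a, (r : ℕ) ≤ V := fun r => by have := r.2; omega
  have hterm := QM_term (p := p) (n := n) V a k h1 h2 c0 (dec st len act pt un) h9
    (fun w => (∀ i ∈ A1, w.1 i = w0.1 i) ∧ (∀ i ∈ A2, w.2.1 i = w0.2.1 i) ∧
        (∀ i ∈ A3, w.2.2.1 i = w0.2.2.1 i) ∧ (∀ i ∈ A4, w.2.2.2 i = w0.2.2.2 i)) (by
      rintro w ⟨hw1, hw2, hw3, hw4⟩
      have hact : (univ.filter fun r => c0.2.2.2.2 r = true) = act := by
        ext r
        simp [c0]
      unfold decC
      rw [hact]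
      refine dec_congr st len act _ _ _ _ (fun r hr e => ?_) (fun x hx => ?_)
      · show w.2.2.2 (fv V r, e, w.1 (c0.2.2.1 r e)) = pt r e
        have e1 : w.1 (c0.2.2.1 r e) = bI (eb r e) := by
          have hm : fv V (eb r e) ∈ A1 := by
            refine Finset.mem_image_of_mem _ ?_
            simp only [usd, mem_image, mem_product, mem_univ, and_true]
            exact ⟨(r, e), hr, rfl⟩
          have e2 : c0.2.2.1 r e = fv V (eb r e) := by
            apply Fin.ext
            rw [fv_val (h4 r e)]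
          rw [e2, hw1 _ hm]
          show bI ((fv V (eb r e) : Fin (V + 1)) : ℕ) = _
          rw [fv_val (h4 r e)]
        rw [e1]
        have hm : (fv V r, e, bI (eb r e)) ∈ A4 := by
          refine Finset.mem_image.2 ⟨(r, e), ?_, rfl⟩
          simp [hr]
        rw [hw4 _ hm]
        have h10 : ((fv V (r : ℕ) : Fin (V + 1)) : ℕ) < a := by
          rw [fv_val (hfa r)]; exact r.2
        show (if h : ((fv V (r : ℕ) : Fin (V + 1)) : ℕ) < a then pt ⟨_, h⟩ e else _) = pt r e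
        rw [dif_pos h10]
        congr 1
        apply Fin.ext
        exact fv_val (hfa r)
      · show w.2.2.1 (fv V x, w.2.1 (fv V (kap sg x)), sgn sg x) = un x
        have hxV : x ≤ V := ap_le h3 hx
        have hm2 : fv V (kap sg x) ∈ A2 :=
          Finset.mem_image_of_mem _ (Finset.mem_image_of_mem _ hx)
        rw [hw2 _ hm2]
        have hm3 : (fv V x, w0.2.1 (fv V (kap sg x)), sgn sg x) ∈ A3 :=
          Finset.mem_image.2 ⟨x, hx, rfl⟩
        rw [hw3 _ hm3]
        show un ((fv V x : Fin (V + 1)) : ℕ) = un x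
        rw [fv_val hxV])
  refine le_trans ?_ hterm
  refine mul_le_mul_of_nonneg_left ?_ (by positivity)
  have hcyl := wO_cyl p hp hn V w0 A1 A2 A3 A4
  refine le_of_le_of_eq (b := (∏ _i ∈ A1, (1 / (Fintype.card (Blk p n) : ℝ))) *
      (∏ i ∈ A2, pri p n (w0.2.1 i).1) *
      (∏ i ∈ A3, wU p n (if i.2.2 then i.2.1.1 else rev i.2.1.1) (w0.2.2.1 i)) *
      (∏ i ∈ A4, wP i.2.2 (w0.2.2.2 i))) ?_ ?_
  swap
  · rw [← hcyl]
    refine Finset.sum_congr rfl fun w _ => ?_
    congr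
  -- the four factors
  have hnb : (1 : ℝ) ≤ (Fintype.card (Blk p n) : ℝ) := by
    have : 0 < Fintype.card (Blk p n) := Fintype.card_pos_iff.2 ⟨w1.1 0⟩
    exact_mod_cast this
  have f1 : (1 / (Fintype.card (Blk p n) : ℝ)) ^ (usd eb act).card ≤
      ∏ _i ∈ A1, (1 / (Fintype.card (Blk p n) : ℝ)) := by
    rw [Finset.prod_const]
    refine pow_le_pow_of_le_one (by positivity) ?_ Finset.card_image_le
    rw [div_le_one (by linarith)]
    exact hnb
  have f2 : ∏ i ∈ A2, pri p n (w0.2.1 i).1 =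
      ∏ c ∈ (ap st len act).image (kap sg), pri p n (lam (un c)) := by
    show ∏ i ∈ ((ap st len act).image (kap sg)).image (fv V), pri p n (w0.2.1 i).1 = _
    have hkV : ∀ c ∈ (ap st len act).image (kap sg), c ≤ V := by
      intro c hc
      obtain ⟨x, hx, rfl⟩ := Finset.mem_image.1 hc
      exact (kap_le sg x).trans (ap_le h3 hx)
    rw [Finset.prod_image (fun x hx y hy h => fv_inj (hkV x hx) (hkV y hy) h)]
    refine Finset.prod_congr rfl fun c hc => ?_
    obtain ⟨x, hx, rfl⟩ := Finset.mem_image.1 hc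
    have h11 : lam (un ((fv V (kap sg x) : Fin (V + 1)) : ℕ)) ∈ LS p n := by
      rw [fv_val (hkV _ hc)]
      exact hLSk x hx
    have h12 : w0.2.1 (fv V (kap sg x)) = ⟨_, h11⟩ := dif_pos h11
    rw [h12]
    show pri p n (lam (un ((fv V (kap sg x) : Fin (V + 1)) : ℕ))) = _
    rw [fv_val (hkV _ hc)]
  have f3 : ∏ i ∈ A3, wU p n (if i.2.2 then i.2.1.1 else rev i.2.1.1) (w0.2.2.1 i) =
      ∏ x ∈ ap st len act, 1 / (nlab p n (lam (un x)) : ℝ) := by
    show ∏ i ∈ (ap st len act).image (fun x => (fv V x, w0.2.1 (fv V (kap sg x)), sgn sg x)), _ = _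
    rw [Finset.prod_image (fun x hx y hy h => fv_inj (ap_le h3 hx) (ap_le h3 hy)
      (congrArg Prod.fst h))]
    refine Finset.prod_congr rfl fun x hx => ?_
    have hxV : x ≤ V := ap_le h3 hx
    have hkV : kap sg x ≤ V := (kap_le sg x).trans hxV
    have h11 : lam (un ((fv V (kap sg x) : Fin (V + 1)) : ℕ)) ∈ LS p n := by
      rw [fv_val hkV]
      exact hLSk x hx
    have h12 : w0.2.1 (fv V (kap sg x)) = ⟨_, h11⟩ := dif_pos h11
    have h13 : (w0.2.1 (fv V (kap sg x))).1 = lam (un (kap sg x)) := by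
      rw [h12]
      show lam (un ((fv V (kap sg x) : Fin (V + 1)) : ℕ)) = _
      rw [fv_val hkV]
    show wU p n (if sgn sg x then (w0.2.1 (fv V (kap sg x))).1
      else rev (w0.2.1 (fv V (kap sg x))).1) (un ((fv V x : Fin (V + 1)) : ℕ)) = _
    rw [h13, ← hlab x, fv_val hxV]
    unfold wU
    rw [if_pos ⟨h7 x hx, rfl⟩]
  have f4 : (1 / (2 * p.Ttot : ℝ)) ^ (2 * act.card) ≤ ∏ i ∈ A4, wP i.2.2 (w0.2.2.2 i) := by
    show _ ≤ ∏ i ∈ (act ×ˢ (univ : Finset Bool)).image
      (fun y => (fv V y.1, y.2, bI (eb y.1 y.2))), wP i.2.2 (w0.2.2.2 i)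
    rw [Finset.prod_image (fun x _ y _ h => by
      have e1 := fv_inj (hfa x.1) (hfa y.1) (congrArg Prod.fst h)
      have e2 : x.2 = y.2 := congrArg (fun z => z.2.1) h
      exact Prod.ext (Fin.ext e1) e2)]
    have hc : (act ×ˢ (univ : Finset Bool)).card = 2 * act.card := by
      rw [Finset.card_product, Finset.card_univ, Fintype.card_bool, mul_comm]
    rw [← hc, ← Finset.prod_const]
    refine Finset.prod_le_prod (fun i _ => by positivity) fun y hy => ?_
    have hr : y.1 ∈ act := (Finset.mem_product.1 hy).1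
    have h10 : ((fv V (y.1 : ℕ) : Fin (V + 1)) : ℕ) < a := by
      rw [fv_val (hfa y.1)]; exact y.1.2
    have h11 : w0.2.2.2 (fv V y.1, y.2, bI (eb y.1 y.2)) = pt y.1 y.2 := by
      show (if h : ((fv V (y.1 : ℕ) : Fin (V + 1)) : ℕ) < a then pt ⟨_, h⟩ y.2 else _) = pt y.1 y.2
      rw [dif_pos h10]
      congr 1
      apply Fin.ext
      exact fv_val (hfa y.1)
    show _ ≤ wP (bI (eb y.1 y.2)) (w0.2.2.2 (fv V y.1, y.2, bI (eb y.1 y.2)))
    rw [h11]
    have h12 := h6 y.1 hr y.2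
    unfold wP
    have h13 : prtN (bI (eb y.1 y.2)) ≠ 0 := by
      unfold prtN
      rw [Finset.card_ne_zero]
      exact ⟨pt y.1 y.2, by simp [h12]⟩
    rw [if_neg h13, if_pos h12]
    apply one_div_le_one_div_of_le
    · exact_mod_cast Nat.pos_of_ne_zero h13
    · exact_mod_cast prtN_le (bI (eb y.1 y.2))
  have g2 : 0 ≤ ∏ c ∈ (ap st len act).image (kap sg), pri p n (lam (un c)) :=
    Finset.prod_nonneg fun c _ => by
      unfold pri
      exact div_nonneg (sq_nonneg _) (Finset.sum_nonneg fun _ _ => sq_nonneg _)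
  have g3 : 0 ≤ ∏ x ∈ ap st len act, 1 / (nlab p n (lam (un x)) : ℝ) :=
    Finset.prod_nonneg fun c _ => by positivity
  rw [f2, f3]
  refine mul_le_mul ?_ f4 (by positivity) ?_
  · refine mul_le_mul_of_nonneg_right (mul_le_mul_of_nonneg_right f1 g2) g3
  · exact mul_nonneg (mul_nonneg (Finset.prod_nonneg fun _ _ => by positivity) g2) g3

end Vale.Agent.P201.Z
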