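import Vale.Agent.P201.Z.C.Kap

/-!
P201, part C: definitions of the description measure (helper174).
-/

namespace Vale.Agent.P201.Z

open Finset

variable {p : Pat} {n : ℕ}

open Classical in
/-- the labels of units -/
noncomputable def LS (p : Pat) (n : ℕ) : Finset (Lbl p) :=
  (univ.filter (fun u : Port p n × Port p n => IsU u)).image lam

/-- prior of a label -/
noncomputable def pri (p : Pat) (n : ℕ) (l : Lbl p) : ℝ := rho p n l ^ 2 / ∑ l' ∈ LS p n, rho p n l' ^ 2

open Classical in
/-- law of the unit of a position with given label -/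
noncomputable def wU (p : Pat) (n : ℕ) (l : Lbl p) (u : Port p n × Port p n) : ℝ :=
  if IsU u ∧ lam u = l then 1 / (nlab p n l : ℝ) else 0

open Classical in
/-- number of ports of a block -/
noncomputable def prtN (b : Blk p n) : ℕ := (univ.filter (fun q : Port p n => blk q.1 = b)).card

open Classical in
/-- law of a port of a given block (uniform on all ports if the block has no port) -/
noncomputable def wP (b : Blk p n) (q : Port p n) : ℝ :=
  if prtN b = 0 then 1 / (Fintype.card (Port p n) : ℝ)
  else if blk q.1 = b then 1 / (prtN b : ℝ) else 0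

/-- labels as a type -/
def LT (p : Pat) (n : ℕ) : Type := {l // l ∈ LS p n}

noncomputable instance : Fintype (LT p n) := inferInstanceAs (Fintype {l // l ∈ LS p n})

noncomputable instance : DecidableEq (LT p n) := Classical.decEq _

/-- the probability space -/
abbrev Om (p : Pat) (n V : ℕ) : Type :=
  (Fin (V + 1) → Blk p n) × (Fin (V + 1) → LT p n) ×
    (Fin (V + 1) × LT p n × Bool → Port p n × Port p n) ×
    (Fin (V + 1) × Bool × Blk p n → Port p n)

/-- weight of a point -/
noncomputable def wO {V : ℕ} (w : Om p n V) : ℝ :=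
  (1 / (Fintype.card (Blk p n) : ℝ)) ^ (V + 1) * (∏ i, pri p n (w.2.1 i).1) *
    (∏ i, wU p n (if i.2.2 then i.2.1.1 else rev i.2.1.1) (w.2.2.1 i)) *
    (∏ i, wP i.2.2 (w.2.2.2 i))

/-- codes with `a` arcs and `k` segments: start positions, lengths, ends, segments, active arcs -/
abbrev Cd (V a k : ℕ) : Type :=
  (Fin a → Fin (V + 1)) × (Fin a → Fin (V + 1)) × (Fin a → Bool → Fin (V + 1)) ×
    (Fin k → Fin (V + 1) × Fin (V + 1) × Fin (V + 1) × Bool) × (Fin a → Bool)

/-- position as an element of `Fin (V+1)` -/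
def fv (V x : ℕ) : Fin (V + 1) := ⟨min x V, by omega⟩

/-- segments of a code -/
def sgOf {V a k : ℕ} (c : Cd V a k) : Fin k → Seg := fun m =>
  ((c.2.2.2.1 m).1, (c.2.2.2.1 m).2.1, (c.2.2.2.1 m).2.2.1, (c.2.2.2.1 m).2.2.2)

/-- units of a point of the probability space, for a code -/
noncomputable def unOf {V a k : ℕ} (c : Cd V a k) (w : Om p n V) (x : ℕ) : Port p n × Port p n :=
  w.2.2.1 (fv V x, w.2.1 (fv V (kap (sgOf c) x)), sgn (sgOf c) x)

/-- ports of a point of the probability space, for a code (`a ≤ V`) -/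
noncomputable def ptOf {V a k : ℕ} (c : Cd V a k) (w : Om p n V) (r : Fin a) (e : Bool) : Port p n :=
  w.2.2.2 (fv V r, e, w.1 (c.2.2.1 r e))

open Classical in
/-- the decoded set -/
noncomputable def decC {V a k : ℕ} (c : Cd V a k) (w : Om p n V) : Finset (Cel p n × Cel p n) :=
  dec (fun r => (c.1 r : ℕ)) (fun r => (c.2.1 r : ℕ)) (univ.filter fun r => c.2.2.2.2 r = true)
    (ptOf c w) (unOf c w)

open Classical in
/-- the measure on sets of matched pairs -/
noncomputable def QM (p : Pat) (n V : ℕ) (S : Finset (Cel p n × Cel p n)) : ℝ :=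
  if S.card ≤ V then
    ∑ a : Fin (V + 1), ∑ k : Fin (V + 1),
      ∑ c : Cd V a k, (1 / (((V : ℝ) + 1) ^ 2 * (Fintype.card (Cd V a k) : ℝ))) *
        ∑ w : Om p n V, (if decC c w = S then wO w else 0)
  else 0

end Vale.Agent.P201.Z
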