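import Vale.Agent.P201.Z.C.Defs

/-!
P201, part C: densities of labels (StmtRho).  Owner: helper652.
-/

namespace Vale.Agent.P201.Z

open Finset

variable {p : Pat} {n : ℕ}

/-- number of cells -/
theorem card_Cel (p : Pat) (n : ℕ) : Fintype.card (Cel p n) = n * p.Ttot := by
  have h1 : Fintype.card (Cel p n) = ∑ x : p.I × Blk p n, (p.N x.1 x.2.1).card := by
    rw [Fintype.card_sigma]
    exact sum_congr rfl fun x _ => Fintype.card_coe _
  rw [h1, Fintype.sum_prod_type]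
  simp only [Fintype.sum_prod_type]
  simp only [sum_const, card_univ, Fintype.card_fin, smul_eq_mul]
  rw [Pat.Ttot, sum_comm, mul_sum]
  apply sum_congr rfl
  intro k _
  rw [mul_sum]

theorem cel_ext' {c d : Cel p n} (h1 : row c = row d) (h2 : blk c = blk d) (h3 : ht c = ht d) :
    c = d := by
  obtain ⟨⟨i, b⟩, h, hh⟩ := c
  obtain ⟨⟨i', b'⟩, h', hh'⟩ := d
  simp only [row, blk, ht] at h1 h2 h3
  subst h1 h2 h3
  rfl

theorem port_ext' {c d : Port p n} (h1 : rc c = rc d) (h2 : blk c.1 = blk d.1)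
    (h3 : ht c.1 = ht d.1) : c = d := by
  simp only [rc, Prod.mk.injEq] at h1
  exact Prod.ext (cel_ext' h1.1 h2 h3) h1.2

/-- pairs of heights with a given difference -/
noncomputable def cps (p : Pat) (i i' : p.I) (d : ℤ) (k : p.K) : Finset (ℤ × ℤ) :=
  (p.N i k ×ˢ p.N i' k).filter (fun x => x.2 - x.1 = d)

noncomputable def cnum (p : Pat) (i i' : p.I) (d : ℤ) : ℕ := ∑ k, (cps p i i' d k).card

open Classical in
theorem nlab_le (l : Lbl p) : nlab p n l ≤ n * cnum p l.1.1 l.2.1.1 l.2.2 := by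
  have h1 : n * cnum p l.1.1 l.2.1.1 l.2.2
      = ((univ : Finset (Fin n)) ×ˢ (univ : Finset p.K).sigma
          (fun k => cps p l.1.1 l.2.1.1 l.2.2 k)).card := by
    rw [card_product, card_sigma, card_univ, Fintype.card_fin, cnum]
  rw [h1, nlab]
  apply card_le_card_of_injOn
    (fun u => (((blk u.1.1).2, ⟨(blk u.1.1).1, (ht u.1.1, ht u.2.1)⟩) :
      Fin n × (Σ _ : p.K, ℤ × ℤ)))
  · intro u hu
    rw [mem_coe, mem_filter] at hu
    obtain ⟨-, hu, hl⟩ := hu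
    have e1 : row u.1.1 = l.1.1 := by rw [← hl]; rfl
    have e2 : row u.2.1 = l.2.1.1 := by rw [← hl]; rfl
    have e3 : ht u.2.1 - ht u.1.1 = l.2.2 := by rw [← hl]; rfl
    rw [mem_coe, mem_product, mem_sigma]
    refine ⟨mem_univ _, mem_univ _, ?_⟩
    rw [cps, mem_filter, mem_product]
    refine ⟨⟨?_, ?_⟩, e3⟩
    · rw [← e1]; exact u.1.1.2.2
    · rw [← e2]
      have h2 : ht u.2.1 ∈ p.N (row u.2.1) (blk u.2.1).1 := u.2.1.2.2
      rw [← hu.1] at h2
      exact h2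
  · intro u hu v hv h
    rw [mem_coe, mem_filter] at hu hv
    obtain ⟨-, hu, hlu⟩ := hu
    obtain ⟨-, hv, hlv⟩ := hv
    have hl := hlu.trans hlv.symm
    have e1 : rc u.1 = rc v.1 := congrArg Prod.fst hl
    have e2 : rc u.2 = rc v.2 := congrArg (fun x => x.2.1) hl
    simp only [Prod.mk.injEq, Sigma.mk.injEq, heq_eq_eq] at h
    obtain ⟨h3, h4, h5, h6⟩ := h
    have hb : blk u.1.1 = blk v.1.1 := Prod.ext h4 h3
    have hb2 : blk u.2.1 = blk v.2.1 := by rw [← hu.1, ← hv.1, hb]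
    exact Prod.ext (port_ext' e1 hb h5) (port_ext' e2 hb2 h6)

open Classical in
/-- every label of a unit occurs at least `n` times -/
theorem le_nlab (u : Port p n × Port p n) (hu : IsU u) : n ≤ nlab p n (lam u) := by
  let mv : Fin n → Port p n → Port p n := fun m q =>
    (⟨(row q.1, ((blk q.1).1, m)), ⟨ht q.1, q.1.2.2⟩⟩, q.2)
  have h1 : n = (univ : Finset (Fin n)).card := by rw [card_univ, Fintype.card_fin]
  rw [nlab]
  conv_lhs => rw [h1]
  apply card_le_card_of_injOn (fun m => (mv m u.1, mv m u.2))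
  · intro m _
    rw [mem_coe, mem_filter]
    refine ⟨mem_univ _, ⟨?_, ?_⟩, ?_⟩
    · show ((blk u.1.1).1, m) = ((blk u.2.1).1, m)
      rw [hu.1]
    · intro h
      apply hu.2
      have e1 : row u.1.1 = row u.2.1 := congrArg (fun q => row q.1) h
      have e2 : ht u.1.1 = ht u.2.1 := congrArg (fun q => ht q.1) h
      have e3 : u.1.2 = u.2.2 := congrArg (fun q => q.2) h
      exact port_ext' (Prod.ext e1 e3) hu.1 e2
    · rfl
  · intro m _ m' _ h
    have h2 : mv m u.1 = mv m' u.1 := congrArg Prod.fst h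
    exact congrArg (fun q => (blk q.1).2) h2

open Classical in
theorem nlab_rev (l : Lbl p) : nlab p n (rev l) = nlab p n l := by
  rw [nlab, nlab]
  apply card_bij (fun u _ => (u.2, u.1))
  · intro u hu
    rw [mem_filter] at hu ⊢
    obtain ⟨-, ⟨h1, h2⟩, h3⟩ := hu
    refine ⟨mem_univ _, ⟨h1.symm, fun h => h2 h.symm⟩, ?_⟩
    have e1 : rc u.1 = l.2.1 := congrArg Prod.fst h3
    have e2 : rc u.2 = l.1 := congrArg (fun x => x.2.1) h3
    have e3 : ht u.2.1 - ht u.1.1 = - l.2.2 := congrArg (fun x => x.2.2) h3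
    show (rc u.2, rc u.1, ht u.1.1 - ht u.2.1) = l
    rw [e1, e2, show ht u.1.1 - ht u.2.1 = l.2.2 by omega]
  · intro u _ v _ h
    exact Prod.ext (congrArg Prod.snd h) (congrArg Prod.fst h)
  · intro u hu
    rw [mem_filter] at hu
    obtain ⟨-, ⟨h1, h2⟩, h3⟩ := hu
    refine ⟨(u.2, u.1), ?_, rfl⟩
    rw [mem_filter]
    refine ⟨mem_univ _, ⟨h1.symm, fun h => h2 h.symm⟩, ?_⟩
    rw [← h3]
    show (rc u.2, rc u.1, ht u.1.1 - ht u.2.1) = (rc u.2, rc u.1, -(ht u.2.1 - ht u.1.1))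
    rw [neg_sub]

/-- the sum of the squares of the numbers of pairs with given difference -/
theorem sum_cnum (i i' : p.I) (D : Finset ℤ) :
    ∑ d ∈ D, cnum p i i' d ^ 2 ≤ ∑ k, ∑ k',
      (((p.N i k ×ˢ p.N i' k) ×ˢ (p.N i k' ×ˢ p.N i' k')).filter
        (fun x => x.1.2 - x.1.1 = x.2.2 - x.2.1)).card := by
  have h1 : ∀ d, cnum p i i' d ^ 2 = ∑ k, ∑ k', (cps p i i' d k ×ˢ cps p i i' d k').card := by
    intro d
    rw [cnum, sq, sum_mul_sum]
    simp only [card_product]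
  simp only [h1]
  rw [sum_comm]
  apply sum_le_sum
  intro k _
  rw [sum_comm]
  apply sum_le_sum
  intro k' _
  rw [← card_biUnion]
  · apply card_le_card
    intro x hx
    rw [mem_biUnion] at hx
    obtain ⟨d, -, hx⟩ := hx
    rw [mem_product, cps, cps, mem_filter, mem_filter] at hx
    rw [mem_filter, mem_product]
    exact ⟨⟨hx.1.1, hx.2.1⟩, hx.1.2.trans hx.2.2.symm⟩
  · intro d _ d' _ hdd
    rw [Function.onFun, disjoint_left]
    intro x hx hx'
    rw [mem_product, cps, cps, mem_filter, mem_filter] at hx hx'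
    exact hdd (hx.1.2.symm.trans hx'.1.2)

theorem sum_lbl (L : Finset (Lbl p)) :
    ∑ l ∈ L, cnum p l.1.1 l.2.1.1 l.2.2 ^ 2 ≤ 4 * p.W4 := by
  classical
  let D : Finset ℤ := L.image (fun l => l.2.2)
  have h1 : L ⊆ (univ : Finset (p.I × Bool)) ×ˢ ((univ : Finset (p.I × Bool)) ×ˢ D) := by
    intro l hl
    rw [mem_product, mem_product]
    exact ⟨mem_univ _, mem_univ _, mem_image_of_mem _ hl⟩
  refine (sum_le_sum_of_subset h1).trans ?_
  rw [sum_product]
  simp only [sum_product]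
  have h2 : ∀ (x : p.I × Bool) (y : p.I × Bool), ∑ d ∈ D, cnum p x.1 y.1 d ^ 2
      ≤ ∑ k, ∑ k', (((p.N x.1 k ×ˢ p.N y.1 k) ×ˢ (p.N x.1 k' ×ˢ p.N y.1 k')).filter
        (fun x => x.1.2 - x.1.1 = x.2.2 - x.2.1)).card := fun x y => sum_cnum x.1 y.1 D
  refine (sum_le_sum fun x _ => sum_le_sum fun y _ => h2 x y).trans ?_
  simp only [Fintype.sum_prod_type, Fintype.sum_bool]
  rw [Pat.W4]
  have h3 : ∀ f : p.I → p.I → p.K → p.K → ℕ,
      ∑ i, ∑ i', ∑ k, ∑ k', f i i' k k' = ∑ k, ∑ k', ∑ i, ∑ i', f i i' k k' := by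
    intro f
    calc ∑ i, ∑ i', ∑ k, ∑ k', f i i' k k'
        = ∑ x : p.I × p.I, ∑ y : p.K × p.K, f x.1 x.2 y.1 y.2 := by
          simp only [Fintype.sum_prod_type]
      _ = ∑ y : p.K × p.K, ∑ x : p.I × p.I, f x.1 x.2 y.1 y.2 := sum_comm
      _ = _ := by simp only [Fintype.sum_prod_type]
  rw [← h3]
  rw [mul_sum]
  apply le_of_eq
  apply sum_congr rfl
  intro i _
  rw [sum_add_distrib]
  ring

theorem stmtRho : StmtRho := by
  intro p hp n hn
  have hT : 0 < p.Ttot := hp.pos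
  have hcard := card_Cel p n
  have hN : (0 : ℝ) < (Fintype.card (Cel p n) : ℝ) := by
    rw [hcard]; exact_mod_cast Nat.mul_pos hn hT
  have hTr : (0 : ℝ) < (p.Ttot : ℝ) := by exact_mod_cast hT
  have hnr : (0 : ℝ) < (n : ℝ) := by exact_mod_cast hn
  have hNe : (Fintype.card (Cel p n) : ℝ) = n * p.Ttot := by rw [hcard]; push_cast; ring
  refine ⟨fun L => ?_, fun u hu => ?_, fun l => ?_, hcard⟩
  · have h1 : ∀ l ∈ L, rho p n l ^ 2 ≤ ((cnum p l.1.1 l.2.1.1 l.2.2 : ℕ) : ℝ) ^ 2 / (p.Ttot : ℝ) ^ 2 := by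
      intro l _
      rw [rho, ← div_pow]
      apply pow_le_pow_left₀ (by positivity)
      rw [div_le_div_iff₀ hN hTr, hNe]
      have h2 : (nlab p n l : ℝ) ≤ n * (cnum p l.1.1 l.2.1.1 l.2.2 : ℕ) := by
        exact_mod_cast nlab_le (n := n) l
      nlinarith [h2, hTr]
    refine (sum_le_sum h1).trans ?_
    rw [← sum_div, div_le_iff₀ (by positivity)]
    have h3 : (∑ l ∈ L, ((cnum p l.1.1 l.2.1.1 l.2.2 : ℕ) : ℝ) ^ 2) ≤ 4 * (p.W4 : ℝ) := by
      exact_mod_cast sum_lbl L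
    have h4 : (8 : ℝ) * (p.W4 : ℝ) ≤ (p.Ttot : ℝ) ^ 2 := by exact_mod_cast hp.w
    linarith
  · rw [rho, ← mul_div_assoc, le_div_iff₀ hN, one_mul, hNe, mul_comm]
    have h2 : (n : ℝ) ≤ (nlab p n (lam u) : ℝ) := by exact_mod_cast le_nlab u hu
    nlinarith [h2, hTr]
  · rw [rho, rho, nlab_rev]

end Vale.Agent.P201.Z
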