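import Vale.Agent.P201.Z.LA.PDefs

/-!
P201, part C: product kernels and the weight of descriptions of a pattern (helper786).
-/

namespace Vale.Agent.P201.Z

open Finset

variable {p : Pat} {n : ℕ}

lemma kn_prod_le {A B : Type} [Fintype A] [Fintype B] (f : A → ℝ) (g : A → B → ℝ)
    (hf : ∀ a, 0 ≤ f a) (hs : ∑ a, f a ≤ 1) (hg : ∀ a, ∑ b, g a b ≤ 1) :
    ∑ x : A × B, f x.1 * g x.1 x.2 ≤ 1 := by
  rw [Fintype.sum_prod_type]
  calc ∑ a, ∑ b, f a * g a b = ∑ a, f a * ∑ b, g a b := by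
        simp only [Finset.mul_sum]
    _ ≤ ∑ a, f a * 1 := Finset.sum_le_sum fun a _ => mul_le_mul_of_nonneg_left (hg a) (hf a)
    _ ≤ 1 := by simpa using hs

lemma kn_pi_le {ι B : Type} [Fintype ι] [DecidableEq ι] [Fintype B] (g : ι → B → ℝ)
    (h0 : ∀ i b, 0 ≤ g i b) (hs : ∀ i, ∑ b, g i b ≤ 1) :
    ∑ f : ι → B, ∏ i, g i (f i) ≤ 1 := by
  have h := Finset.prod_univ_sum (fun _ : ι => (univ : Finset B)) g
  rw [Fintype.piFinset_univ] at h
  rw [← h]
  exact Finset.prod_le_one (fun i _ => Finset.sum_nonneg fun b _ => h0 i b) fun i _ => hs i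

lemma card_ports_le (b : Blk p n) :
    (univ.filter (fun q : Port p n => blk q.1 = b)).card ≤ 2 * p.Ttot := by
  classical
  have hinj : ∃ f : {q : Port p n // blk q.1 = b} →
      (Σ i : p.I, {h : ℤ // h ∈ p.N i b.1}) × Bool, Function.Injective f := by
    refine ⟨fun q => (⟨row q.1.1, ⟨ht q.1.1, ?_⟩⟩, q.1.2), ?_⟩
    · have h1 : ht q.1.1 ∈ p.N (row q.1.1) (blk q.1.1).1 := q.1.1.2.2
      have h2 : blk q.1.1 = b := q.2
      rw [h2] at h1
      exact h1
    · rintro ⟨⟨⟨⟨i, b1⟩, ⟨h, hh⟩⟩, c⟩, hb⟩ ⟨⟨⟨⟨i', b1'⟩, ⟨h', hh'⟩⟩, c'⟩, hb'⟩ he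
      have hb2 : b1 = b := hb
      have hb2' : b1' = b := hb'
      subst hb2
      subst hb2'
      simp only [Prod.mk.injEq, row, ht] at he
      obtain ⟨h1, h2⟩ := he
      simp only [Sigma.mk.injEq] at h1
      obtain ⟨h3, h4⟩ := h1
      subst h3
      simp only [heq_eq_eq, Subtype.mk.injEq] at h4
      subst h4
      subst h2
      rfl
  obtain ⟨f, hf⟩ := hinj
  have h1 := Fintype.card_le_of_injective f hf
  have h2 : Fintype.card {q : Port p n // blk q.1 = b} =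
      (univ.filter (fun q : Port p n => blk q.1 = b)).card := by
    rw [Fintype.card_subtype]
  rw [← h2]
  refine h1.trans ?_
  rw [Fintype.card_prod, Fintype.card_sigma, Fintype.card_bool, mul_comm]
  refine Nat.mul_le_mul_left 2 ?_
  simp only [Fintype.card_coe]
  unfold Pat.Ttot
  exact Finset.single_le_sum (f := fun k => ∑ i, (p.N i k).card) (fun _ _ => Nat.zero_le _)
    (Finset.mem_univ b.1)

/-! ## Descriptions -/

open Classical in
/-- all labels of pairs of ports -/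
noncomputable def labs (p : Pat) (n : ℕ) : Finset (Lbl p) :=
  univ.image (fun u : Port p n × Port p n => lam u)

lemma lam_mem_labs (u : Port p n × Port p n) : lam u ∈ labs p n := by
  classical
  exact Finset.mem_image.2 ⟨u, Finset.mem_univ _, rfl⟩

/-- label with sign -/
def sgl (l : Lbl p) (b : Bool) : Lbl p := if b then l else rev l

/-- irregular half-edges -/
abbrev Ptn.IH (P : Ptn) : Type := {h : P.E × Bool // (P.att h).isLeft = true}

/-- vertex of an irregular half-edge -/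
def Ptn.iv (P : Ptn) (h : P.IH) : P.V := (P.att h.1).getLeft h.2

/-- descriptions of a pattern -/
abbrev Dsc (P : Ptn) (p : Pat) (n : ℕ) : Type :=
  ((P.V → Blk p n) × (P.IH → Port p n)) × ((P.C → labs p n) × (P.R → Port p n × Port p n))

open Classical in
noncomputable def wV (P : Ptn) (p : Pat) (n : ℕ) (_β : P.V → Blk p n) : ℝ :=
  ∏ _v : P.V, (1 / (Fintype.card (Blk p n) : ℝ)) 

open Classical in
noncomputable def wH (P : Ptn) (β : P.V → Blk p n) (π : P.IH → Port p n) : ℝ :=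
  ∏ h : P.IH, if blk (π h).1 = β (P.iv h) then 1 / ((2 * p.Ttot : ℕ) : ℝ) else 0

open Classical in
noncomputable def wC (P : Ptn) (p : Pat) (n : ℕ) (L : P.C → labs p n) : ℝ :=
  ∏ c : P.C, 2 * rho p n (L c).1 ^ 2

open Classical in
noncomputable def wR (P : Ptn) (L : P.C → labs p n) (u : P.R → Port p n × Port p n) : ℝ :=
  ∏ r : P.R, if IsU (u r) ∧ lam (u r) = sgl (L (P.cl r).1).1 (P.cl r).2 then
    1 / (nlab p n (sgl (L (P.cl r).1).1 (P.cl r).2) : ℝ) else 0

noncomputable def wt (P : Ptn) (x : Dsc P p n) : ℝ :=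
  (wV P p n x.1.1 * wH P x.1.1 x.1.2) * (wC P p n x.2.1 * wR P x.2.1 x.2.2)

lemma wV_nonneg (P : Ptn) (β : P.V → Blk p n) : 0 ≤ wV P p n β :=
  Finset.prod_nonneg fun _ _ => by positivity

lemma wH_nonneg (P : Ptn) (β : P.V → Blk p n) (π : P.IH → Port p n) : 0 ≤ wH P β π :=
  Finset.prod_nonneg fun _ _ => by split_ifs <;> positivity

lemma wC_nonneg (P : Ptn) (L : P.C → labs p n) : 0 ≤ wC P p n L :=
  Finset.prod_nonneg fun _ _ => by positivity

lemma wR_nonneg (P : Ptn) (L : P.C → labs p n) (u : P.R → Port p n × Port p n) : 0 ≤ wR P L u :=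
  Finset.prod_nonneg fun _ _ => by split_ifs <;> positivity

lemma wt_nonneg (P : Ptn) (x : Dsc P p n) : 0 ≤ wt P x :=
  mul_nonneg (mul_nonneg (wV_nonneg _ _) (wH_nonneg _ _ _))
    (mul_nonneg (wC_nonneg _ _) (wR_nonneg _ _ _))

lemma sum_wV_le (P : Ptn) : ∑ β : P.V → Blk p n, wV P p n β ≤ 1 := by
  classical
  unfold wV
  refine kn_pi_le (fun _ _ => 1 / (Fintype.card (Blk p n) : ℝ)) (fun _ _ => by positivity) ?_
  intro _
  rw [Finset.sum_const, Finset.card_univ, nsmul_eq_mul]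
  rcases Nat.eq_zero_or_pos (Fintype.card (Blk p n)) with h | h
  · rw [h]; simp
  · have h' : (Fintype.card (Blk p n) : ℝ) ≠ 0 := by positivity
    rw [mul_one_div_cancel h']

lemma sum_wH_le (P : Ptn) (hT : 0 < p.Ttot) (β : P.V → Blk p n) :
    ∑ π : P.IH → Port p n, wH P β π ≤ 1 := by
  classical
  unfold wH
  refine kn_pi_le (fun (h : P.IH) (q : Port p n) =>
    if blk q.1 = β (P.iv h) then 1 / ((2 * p.Ttot : ℕ) : ℝ) else 0)
    (fun _ _ => by split_ifs <;> positivity) ?_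
  intro h
  rw [← Finset.sum_filter, Finset.sum_const, nsmul_eq_mul]
  have h1 := card_ports_le (p := p) (n := n) (β (P.iv h))
  have h2 : (0 : ℝ) < ((2 * p.Ttot : ℕ) : ℝ) := by
    have : 0 < 2 * p.Ttot := by omega
    exact_mod_cast this
  rw [mul_one_div, div_le_one h2]
  exact_mod_cast h1

lemma sum_wR_le (P : Ptn) (L : P.C → labs p n) :
    ∑ u : P.R → Port p n × Port p n, wR P L u ≤ 1 := by
  classical
  unfold wR
  refine kn_pi_le (fun (r : P.R) (u : Port p n × Port p n) =>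
    if IsU u ∧ lam u = sgl (L (P.cl r).1).1 (P.cl r).2 then
    1 / (nlab p n (sgl (L (P.cl r).1).1 (P.cl r).2) : ℝ) else 0)
    (fun _ _ => by split_ifs <;> positivity) ?_
  intro r
  rw [← Finset.sum_filter, Finset.sum_const, nsmul_eq_mul]
  have h1 : (univ.filter (fun u : Port p n × Port p n =>
      IsU u ∧ lam u = sgl (L (P.cl r).1).1 (P.cl r).2)).card =
      nlab p n (sgl (L (P.cl r).1).1 (P.cl r).2) := by
    unfold nlab
    congr
  rw [h1]
  rcases Nat.eq_zero_or_pos (nlab p n (sgl (L (P.cl r).1).1 (P.cl r).2)) with h | h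
  · rw [h]; simp
  · have h' : (nlab p n (sgl (L (P.cl r).1).1 (P.cl r).2) : ℝ) ≠ 0 := by positivity
    rw [mul_one_div_cancel h']

lemma sum_wC_le (P : Ptn) (hrho : ∀ L : Finset (Lbl p), ∑ l ∈ L, rho p n l ^ 2 ≤ 1 / 2) :
    ∑ L : P.C → labs p n, wC P p n L ≤ 1 := by
  classical
  unfold wC
  refine kn_pi_le (fun _ (l : labs p n) => 2 * rho p n l.1 ^ 2) (fun _ _ => by positivity) ?_
  intro _
  rw [← Finset.mul_sum, Finset.sum_coe_sort (labs p n) (fun l => rho p n l ^ 2)]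
  have := hrho (labs p n)
  linarith

lemma sum_wt_le (P : Ptn) (hT : 0 < p.Ttot)
    (hrho : ∀ L : Finset (Lbl p), ∑ l ∈ L, rho p n l ^ 2 ≤ 1 / 2) :
    ∑ x : Dsc P p n, wt P x ≤ 1 := by
  classical
  unfold wt
  have h1 : ∑ y : (P.V → Blk p n) × (P.IH → Port p n), wV P p n y.1 * wH P y.1 y.2 ≤ 1 :=
    kn_prod_le (wV P p n) (wH P) (wV_nonneg P) (sum_wV_le P) (sum_wH_le P hT)
  have h2 : ∑ y : (P.C → labs p n) × (P.R → Port p n × Port p n),
      wC P p n y.1 * wR P y.1 y.2 ≤ 1 :=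
    kn_prod_le (wC P p n) (wR P) (wC_nonneg P) (sum_wC_le P hrho) (sum_wR_le P)
  exact kn_prod_le (fun y : (P.V → Blk p n) × (P.IH → Port p n) => wV P p n y.1 * wH P y.1 y.2)
    (fun _ (y : (P.C → labs p n) × (P.R → Port p n × Port p n)) => wC P p n y.1 * wR P y.1 y.2)
    (fun y => mul_nonneg (wV_nonneg _ _) (wH_nonneg _ _ _)) h1 (fun _ => h2)

end Vale.Agent.P201.Z
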