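import Mathlib

/-!
P201, part C: the final logarithm lemma (helper174).  Pure real analysis.
-/

namespace Vale.Agent.P201.Z.ULog

open Finset

/-- `E (ln N - ln (N - T)) ≤ 1` if `2 (E+1) T ≤ N`. -/
theorem log_sub_le {N T : ℝ} {E M : ℕ} (hN : 0 < N) (hT : 0 ≤ T) (hE : E ≤ M)
    (h : (2 * M + 2) * T ≤ N) : (E : ℝ) * (Real.log N - Real.log (N - T)) ≤ 1 := by
  have hE' : (E : ℝ) ≤ M := by exact_mod_cast hE
  have hE0 : (0 : ℝ) ≤ E := Nat.cast_nonneg _
  have hM0 : (0 : ℝ) ≤ M := Nat.cast_nonneg _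
  have hT2 : 2 * T ≤ N := by nlinarith
  have hNT : 0 < N - T := by linarith
  -- ln N - ln(N-T) = ln (N/(N-T)) ≤ N/(N-T) - 1 = T/(N-T)
  have h1 : Real.log N - Real.log (N - T) ≤ T / (N - T) := by
    rw [← Real.log_div hN.ne' hNT.ne']
    have h2 := Real.log_le_sub_one_of_pos (div_pos hN hNT)
    have h3 : N / (N - T) - 1 = T / (N - T) := by
      field_simp
      ring
    linarith
  have h4 : (E : ℝ) * (T / (N - T)) ≤ 1 := by
    rw [mul_div_assoc', div_le_one hNT]
    nlinarith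
  calc (E : ℝ) * (Real.log N - Real.log (N - T)) ≤ E * (T / (N - T)) :=
        mul_le_mul_of_nonneg_left h1 hE0
    _ ≤ 1 := h4

/-- from the weight inequality to (U) -/
theorem ulog {ιR ιC : Type*} [Fintype ιR] [Fintype ιC] (E V H M I : ℕ) (N T D nb κ : ℝ)
    (rho : ιR → ℝ) (nu : ιR → ℝ) (rc : ιC → ℝ) (pri : ιC → ℝ)
    (hN : 1 ≤ N) (hT : 0 ≤ T) (hE : E ≤ M) (hNT : (2 * M + 2) * T ≤ N)
    (hI : 0 < I) (hD : 1 ≤ D) (hnb : 0 < nb) (hκ : 1 ≤ κ) (hnbN : nb ≤ κ * N)
    (hrho : ∀ r, 0 < rho r) (hnu : ∀ r, nu r = rho r * N)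
    (hrc : ∀ c, 0 < rc c) (hpri : ∀ c, 2 * rc c ^ 2 ≤ pri c)
    (hQ : (1 / (I : ℝ)) * ((1 / nb) ^ V * (1 / D) ^ H * (∏ c, pri c) * (∏ r, 1 / nu r)) *
      (N - T) ^ E ≤ 1) :
    ((E : ℝ) - V - Fintype.card ιR) * Real.log N ≤
      ∑ r, Real.log (rho r) - ∑ c, (Real.log 2 + 2 * Real.log (rc c)) +
      (V * Real.log κ + H * Real.log D + Real.log I + 1) := by
  have hN0 : 0 < N := by linarith
  have hM0 : (0 : ℝ) ≤ M := Nat.cast_nonneg _
  have hNT0 : 0 < N - T := by nlinarith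
  have hI0 : (0 : ℝ) < I := by exact_mod_cast hI
  have hD0 : 0 < D := by linarith
  have hpri0 : ∀ c, 0 < pri c := fun c => lt_of_lt_of_le (by have := hrc c; positivity) (hpri c)
  have hnu0 : ∀ r, 0 < nu r := fun r => by rw [hnu r]; exact mul_pos (hrho r) hN0
  have hκ0 : 0 < κ := by linarith
  have p1 : 0 < (1 / nb) ^ V := by positivity
  have p2 : 0 < (1 / D) ^ H := by positivity
  have p3 : 0 < ∏ c, pri c := Finset.prod_pos fun c _ => hpri0 c
  have p4 : 0 < ∏ r, 1 / nu r := Finset.prod_pos fun r _ => by have := hnu0 r; positivity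
  have p5 : 0 < (N - T) ^ E := by positivity
  have p0 : 0 < 1 / (I : ℝ) := by positivity
  have hlog := Real.log_le_log (by positivity) hQ
  rw [Real.log_one, Real.log_mul (by positivity) p5.ne', Real.log_mul p0.ne' (by positivity),
    Real.log_mul (by positivity) p4.ne', Real.log_mul (by positivity) p3.ne',
    Real.log_mul p1.ne' p2.ne', Real.log_pow, Real.log_pow, Real.log_pow,
    one_div, one_div, one_div, Real.log_inv, Real.log_inv, Real.log_inv,
    Real.log_prod (fun c _ => (hpri0 c).ne'),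
    Real.log_prod (fun r _ => by have := hnu0 r; positivity)] at hlog
  have e1 : ∑ r, Real.log (1 / nu r) = - ∑ r, Real.log (rho r) - Fintype.card ιR * Real.log N := by
    have : ∀ r, Real.log (1 / nu r) = - Real.log (rho r) - Real.log N := by
      intro r
      rw [one_div, Real.log_inv, hnu r, Real.log_mul (hrho r).ne' hN0.ne']
      ring
    rw [Finset.sum_congr rfl fun r _ => this r, Finset.sum_sub_distrib, Finset.sum_neg_distrib,
      Finset.sum_const, Finset.card_univ, nsmul_eq_mul]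
  have e2 : ∑ c, (Real.log 2 + 2 * Real.log (rc c)) ≤ ∑ c, Real.log (pri c) := by
    refine Finset.sum_le_sum fun c _ => ?_
    have h1 := Real.log_le_log (by have := hrc c; positivity) (hpri c)
    rw [Real.log_mul (by norm_num) (pow_pos (hrc c) 2).ne', Real.log_pow] at h1
    push_cast at h1
    exact h1
  have e3 : Real.log nb ≤ Real.log κ + Real.log N := by
    rw [← Real.log_mul hκ0.ne' hN0.ne']
    exact Real.log_le_log hnb hnbN
  have e4 := log_sub_le hN0 hT hE hNT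
  have hV0 : (0 : ℝ) ≤ V := Nat.cast_nonneg _
  have e5 : (V : ℝ) * Real.log nb ≤ V * (Real.log κ + Real.log N) :=
    mul_le_mul_of_nonneg_left e3 hV0
  rw [e1] at hlog
  nlinarith [hlog, e2, e4, e5]

end Vale.Agent.P201.Z.ULog
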